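import Vale.Agent.P198.W.Lim

/-!
# Weyl's lemma in the plane for continuous functions
-/

open Filter Topology Set Metric Complex InnerProductSpace MeasureTheory
open scoped Convolution ContDiff

namespace P198W

/-- Directional derivative. -/
noncomputable def pd (e : ℂ) (f : ℂ → ℝ) (z : ℂ) : ℝ := fderiv ℝ f z e

/-- The (classical) Laplacian `f_xx + f_yy`, for test functions. -/
noncomputable def lap (f : ℂ → ℝ) (z : ℂ) : ℝ := pd 1 (pd 1 f) z + pd I (pd I f) z

lemma two_le_infty : (2 : WithTop ℕ∞) ≤ ∞ := by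
  have : ((2 : ℕ∞) : WithTop ℕ∞) ≤ ((⊤ : ℕ∞) : WithTop ℕ∞) := WithTop.coe_le_coe.2 le_top
  simpa using this

lemma contDiff_pd {n : ℕ∞ω} {m : ℕ∞ω} {f : ℂ → ℝ} (hf : ContDiff ℝ n f) (hmn : m + 1 ≤ n) (e : ℂ) :
    ContDiff ℝ m (pd e f) :=
  (hf.fderiv_right hmn).clm_apply contDiff_const

lemma contDiff_pd_infty {f : ℂ → ℝ} (hf : ContDiff ℝ ∞ f) (e : ℂ) : ContDiff ℝ ∞ (pd e f) :=
  contDiff_pd hf (by simp) e

lemma hasCompactSupport_pd {f : ℂ → ℝ} (hf : HasCompactSupport f) (e : ℂ) :
    HasCompactSupport (pd e f) :=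
  (hf.fderiv (𝕜 := ℝ)).comp_left (g := fun L : ℂ →L[ℝ] ℝ => L e) (by simp)

lemma tsupport_pd_subset (f : ℂ → ℝ) (e : ℂ) : tsupport (pd e f) ⊆ tsupport f := by
  refine closure_minimal ?_ (isClosed_tsupport f)
  intro z hz
  by_contra h
  apply hz
  have : fderiv ℝ f z = 0 := by
    have h1 : f =ᶠ[𝓝 z] fun _ => 0 := notMem_tsupport_iff_eventuallyEq.1 h
    rw [h1.fderiv_eq]; simp
  simp [pd, this]

lemma pd_pd {f : ℂ → ℝ} {z : ℂ} (hf : ContDiffAt ℝ 2 f z) (e e' : ℂ) :
    pd e' (pd e f) z = iteratedFDeriv ℝ 2 f z ![e', e] := by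
  rw [iteratedFDeriv_two_apply]
  have hd : DifferentiableAt ℝ (fderiv ℝ f) z :=
    (hf.fderiv_right (m := 1) (by norm_num)).differentiableAt (by norm_num)
  unfold pd
  rw [fderiv_clm_apply hd (by fun_prop)]
  simp

lemma laplacian_eq_lap {f : ℂ → ℝ} {z : ℂ} (hf : ContDiffAt ℝ 2 f z) :
    Laplacian.laplacian f z = lap f z := by
  rw [laplacian_eq_iteratedFDeriv_complexPlane, lap, pd_pd hf, pd_pd hf]

/-- Convolution with a smooth compactly supported kernel commutes with derivatives. -/
lemma pd_convolution {v φ : ℂ → ℝ} (hv : LocallyIntegrable v volume)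
    (hφ : ContDiff ℝ 1 φ) (hc : HasCompactSupport φ) (e : ℂ) :
    pd e (v ⋆[ContinuousLinearMap.lsmul ℝ ℝ, volume] φ) =
      (v ⋆[ContinuousLinearMap.lsmul ℝ ℝ, volume] (pd e φ)) := by
  funext z
  unfold pd
  rw [(hc.hasFDerivAt_convolution_right (ContinuousLinearMap.lsmul ℝ ℝ) hv hφ z).fderiv]
  exact convolution_precompR_apply (ContinuousLinearMap.lsmul ℝ ℝ) hv
    (hc.fderiv (𝕜 := ℝ)) (hφ.continuous_fderiv one_ne_zero) z e

lemma conv_apply (v φ : ℂ → ℝ) (x : ℂ) :
    (v ⋆[ContinuousLinearMap.lsmul ℝ ℝ, volume] φ) x = ∫ t, v t * φ (x - t) := by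
  rw [convolution_def]; rfl

lemma pd_comp_sub {φ : ℂ → ℝ} (hφ : Differentiable ℝ φ) (x e : ℂ) :
    pd e (fun t => φ (x - t)) = fun t => - pd e φ (x - t) := by
  funext t
  unfold pd
  have h1 : HasFDerivAt (fun t : ℂ => x - t) (-(ContinuousLinearMap.id ℝ ℂ)) t := by
    exact (hasFDerivAt_id t).const_sub x
  have h2 := (hφ (x - t)).hasFDerivAt.comp t h1
  rw [show (fun t => φ (x - t)) = φ ∘ (fun t => x - t) from rfl, h2.fderiv]
  simp

lemma pd_neg (φ : ℂ → ℝ) (e : ℂ) : pd e (fun t => - φ t) = fun t => - pd e φ t := by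
  funext t
  unfold pd
  rw [show (fun t => - φ t) = -φ from rfl, fderiv_neg]
  simp

lemma lap_comp_sub {φ : ℂ → ℝ} (hφ : ContDiff ℝ ∞ φ) (x : ℂ) :
    lap (fun t => φ (x - t)) = fun t => lap φ (x - t) := by
  funext t
  unfold lap
  have h0 := hφ.differentiable (by simp)
  have h1 := fun e => (contDiff_pd_infty hφ e).differentiable (by simp)
  rw [pd_comp_sub h0, pd_comp_sub h0, pd_neg (fun t => pd 1 φ (x - t)),
    pd_neg (fun t => pd I φ (x - t)), pd_comp_sub (h1 1), pd_comp_sub (h1 I)]
  simp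

lemma conv_contDiff {v φ : ℂ → ℝ} (hv : LocallyIntegrable v volume)
    (hφ : ContDiff ℝ ∞ φ) (hc : HasCompactSupport φ) :
    ContDiff ℝ ∞ (v ⋆[ContinuousLinearMap.lsmul ℝ ℝ, volume] φ) :=
  hc.contDiff_convolution_right _ hv hφ

lemma lap_convolution {v φ : ℂ → ℝ} (hv : LocallyIntegrable v volume)
    (hφ : ContDiff ℝ ∞ φ) (hc : HasCompactSupport φ) (x : ℂ) :
    lap (v ⋆[ContinuousLinearMap.lsmul ℝ ℝ, volume] φ) x =
      ∫ t, v t * lap (fun t => φ (x - t)) t := by
  have h1 : ∀ e, pd e (pd e (v ⋆[ContinuousLinearMap.lsmul ℝ ℝ, volume] φ)) =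
      (v ⋆[ContinuousLinearMap.lsmul ℝ ℝ, volume] (pd e (pd e φ))) := by
    intro e
    rw [pd_convolution hv (hφ.of_le (by exact_mod_cast le_top)) hc,
      pd_convolution hv ((contDiff_pd_infty hφ e).of_le (by exact_mod_cast le_top))
        (hasCompactSupport_pd hc e)]
  have hint : ∀ e, Integrable (fun t => v t * pd e (pd e φ) (x - t)) := by
    intro e
    have h2 : HasCompactSupport (pd e (pd e φ)) :=
      hasCompactSupport_pd (hasCompactSupport_pd hc e) e
    have h3 : Continuous (pd e (pd e φ)) :=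
      (contDiff_pd_infty (contDiff_pd_infty hφ e) e).continuous
    exact h2.convolutionExists_right (ContinuousLinearMap.lsmul ℝ ℝ) hv h3 x
  rw [lap_comp_sub hφ]
  unfold lap
  rw [h1, h1, conv_apply, conv_apply, ← integral_add (hint 1) (hint I)]
  congr 1
  funext t
  ring

/-- Locally supported version: `u` and `v` agree near the ball. -/
lemma hasCompactSupport_comp_sub {φ : ℂ → ℝ} (hc : HasCompactSupport φ) (x : ℂ) :
    HasCompactSupport (fun t => φ (x - t)) :=
  hc.comp_homeomorph (Homeomorph.subLeft x)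

lemma tsupport_comp_sub {φ : ℂ → ℝ} {r : ℝ} (h : tsupport φ ⊆ closedBall 0 r) (x : ℂ) :
    tsupport (fun t => φ (x - t)) ⊆ closedBall x r := by
  refine closure_minimal ?_ isClosed_closedBall
  intro t ht
  have : x - t ∈ tsupport φ := subset_tsupport _ ht
  have := h this
  rw [mem_closedBall, dist_comm]
  simpa [dist_eq_norm] using this

/-- **Weyl's lemma** for continuous functions in the plane. -/
theorem weyl {U : Set ℂ} (hU : IsOpen U) {u : ℂ → ℝ} (hu : ContinuousOn u U)
    (h : ∀ ψ : ℂ → ℝ, ContDiff ℝ ∞ ψ → HasCompactSupport ψ → tsupport ψ ⊆ U →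
      ∫ z, u z * lap ψ z = 0) : HarmonicOnNhd u U := by
  intro z hz
  obtain ⟨ρ, hρ, hρU⟩ := Metric.isOpen_iff.1 hU z hz
  set r : ℝ := ρ / 4 with hr
  have hr0 : 0 < r := by positivity
  -- cut-off
  let χ : ContDiffBump z := ⟨2 * r, 3 * r, by positivity, by linarith⟩
  set v : ℂ → ℝ := fun t => χ t * u t with hv
  have hχU : tsupport χ ⊆ U := by
    rw [χ.tsupport_eq]
    exact (closedBall_subset_ball (by show 3 * r < ρ; linarith)).trans hρU
  have hvc : Continuous v := by
    rw [continuous_iff_continuousAt]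
    intro t
    by_cases ht : t ∈ U
    · exact χ.continuous.continuousAt.mul (hu.continuousAt (hU.mem_nhds ht))
    · have ht' : t ∉ tsupport χ := fun h => ht (hχU h)
      have h1 : (χ : ℂ → ℝ) =ᶠ[𝓝 t] fun _ => 0 := notMem_tsupport_iff_eventuallyEq.1 ht'
      have h2 : v =ᶠ[𝓝 t] fun _ => 0 := by
        filter_upwards [h1] with s hs
        simp [hv, hs]
      exact (continuousAt_const.congr h2.symm)
  have hvcs : HasCompactSupport v := χ.hasCompactSupport.mul_right
  have hvu : ∀ t ∈ closedBall z (2 * r), v t = u t := by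
    intro t ht
    simp [hv, χ.one_of_mem_closedBall ht]
  have hvl : LocallyIntegrable v volume := hvc.locallyIntegrable
  -- mollifiers
  let φ : ℕ → ContDiffBump (0 : ℂ) := fun n =>
    ⟨r / (n + 2) / 2, r / (n + 2), by positivity, by
      have : 0 < r / ((n : ℝ) + 2) := by positivity
      linarith⟩
  have hφr : ∀ n, (φ n).rOut = r / (n + 2) := fun n => rfl
  have hφlt : ∀ n, (φ n).rOut < r := by
    intro n
    rw [hφr, div_lt_iff₀ (by positivity)]
    nlinarith [(Nat.cast_nonneg n : (0:ℝ) ≤ n)]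
  set w : ℕ → ℂ → ℝ := fun n =>
    v ⋆[ContinuousLinearMap.lsmul ℝ ℝ, volume] ((φ n).normed volume) with hw
  have hφs : ∀ n, ContDiff ℝ ∞ ((φ n).normed (volume : Measure ℂ)) := fun n =>
    (φ n).contDiff_normed
  have hφc : ∀ n, HasCompactSupport ((φ n).normed (volume : Measure ℂ)) := fun n =>
    (φ n).hasCompactSupport_normed
  have hwharm : ∀ n, HarmonicOnNhd (w n) (ball z r) := by
    intro n
    have hcd : ContDiff ℝ ∞ (w n) := conv_contDiff hvl (hφs n) (hφc n)
    have hlap : ∀ x ∈ ball z r, Laplacian.laplacian (w n) x = 0 := by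
      intro x hx
      rw [laplacian_eq_lap (hcd.contDiffAt.of_le two_le_infty)]
      rw [hw]
      simp only
      rw [lap_convolution hvl (hφs n) (hφc n)]
      set ψ : ℂ → ℝ := fun t => (φ n).normed volume (x - t) with hψ
      have hψs : ContDiff ℝ ∞ ψ := (hφs n).comp (contDiff_const.sub contDiff_id)
      have hψc : HasCompactSupport ψ := hasCompactSupport_comp_sub (hφc n) x
      have hψt : tsupport ψ ⊆ closedBall x r := by
        apply tsupport_comp_sub
        rw [(φ n).tsupport_normed_eq]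
        exact closedBall_subset_closedBall (hφlt n).le
      have hsub : closedBall x r ⊆ closedBall z (2 * r) := by
        intro t ht
        rw [mem_closedBall] at ht ⊢
        have := dist_triangle t x z
        rw [mem_ball] at hx
        linarith
      have hU' : tsupport ψ ⊆ U := by
        refine hψt.trans (hsub.trans ?_)
        exact (closedBall_subset_ball (by linarith)).trans hρU
      rw [← h ψ hψs hψc hU']
      refine integral_congr_ae (Eventually.of_forall fun t => ?_)
      simp only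
      by_cases ht : t ∈ tsupport ψ
      · rw [hvu t (hsub (hψt ht))]
      · have h1 : lap ψ t = 0 := by
          have h2 : ∀ e, t ∉ tsupport (pd e (pd e ψ)) := fun e h3 =>
            ht (tsupport_pd_subset _ _ (tsupport_pd_subset _ _ h3))
          unfold lap
          rw [image_eq_zero_of_notMem_tsupport (h2 1), image_eq_zero_of_notMem_tsupport (h2 I)]
          simp
        rw [h1]; simp
    intro x hx
    refine ⟨hcd.contDiffAt.of_le two_le_infty, ?_⟩
    filter_upwards [isOpen_ball.mem_nhds hx] with y hy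
    exact hlap y hy
  have hunif : TendstoUniformlyOn w u atTop (ball z r) := by
    rw [Metric.tendstoUniformlyOn_iff]
    intro ε hε
    have huc : UniformContinuous v := hvcs.uniformContinuous_of_continuous hvc
    obtain ⟨δ, hδ, hδ'⟩ := Metric.uniformContinuous_iff.1 huc (ε / 2) (by positivity)
    have hlim : Tendsto (fun n : ℕ => r / ((n : ℝ) + 2)) atTop (𝓝 0) := by
      apply Tendsto.div_atTop tendsto_const_nhds
      exact tendsto_atTop_add_const_right _ _ tendsto_natCast_atTop_atTop
    filter_upwards [(hlim.eventually (gt_mem_nhds hδ))] with n hn x hx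
    have h1 : dist (((φ n).normed volume ⋆[ContinuousLinearMap.lsmul ℝ ℝ, volume] v) x) (v x)
        ≤ ε / 2 := by
      apply (φ n).dist_normed_convolution_le hvc.aestronglyMeasurable
      intro y hy
      exact (hδ' (lt_of_lt_of_le hy (by rw [hφr]; exact hn.le))).le
    have h2 : w n x = ((φ n).normed volume ⋆[ContinuousLinearMap.lsmul ℝ ℝ, volume] v) x := by
      rw [hw]
      simp only
      rw [conv_apply, convolution_eq_swap]
      refine integral_congr_ae (Eventually.of_forall fun t => ?_)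
      simp [mul_comm]
    have h3 : v x = u x := hvu x ((ball_subset_closedBall.trans
      (closedBall_subset_closedBall (by linarith))) hx)
    rw [dist_comm, h2, ← h3]
    linarith
  exact harmonicOnNhd_of_tendstoUniformlyOn hwharm hunif z (mem_ball_self hr0)

end P198W
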