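import Vale.Agent.P198.W.Weyl

/-!
# Harmonic pairs with harmonic products are holomorphic or antiholomorphic
-/

open Filter Topology Set Metric Complex InnerProductSpace MeasureTheory
open scoped ContDiff

namespace P198W

lemma pd_mul {f g : ℂ → ℝ} {z : ℂ} (hf : DifferentiableAt ℝ f z) (hg : DifferentiableAt ℝ g z)
    (e : ℂ) : pd e (fun w => f w * g w) z = f z * pd e g z + g z * pd e f z := by
  unfold pd
  rw [fderiv_fun_mul hf hg]
  simp

lemma pd_add {f g : ℂ → ℝ} {z : ℂ} (hf : DifferentiableAt ℝ f z) (hg : DifferentiableAt ℝ g z)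
    (e : ℂ) : pd e (fun w => f w + g w) z = pd e f z + pd e g z := by
  unfold pd
  rw [fderiv_fun_add hf hg]
  simp

lemma pd_sub {f g : ℂ → ℝ} {z : ℂ} (hf : DifferentiableAt ℝ f z) (hg : DifferentiableAt ℝ g z)
    (e : ℂ) : pd e (fun w => f w - g w) z = pd e f z - pd e g z := by
  unfold pd
  rw [fderiv_fun_sub hf hg]
  simp

lemma pd_congr {f g : ℂ → ℝ} {z : ℂ} (h : f =ᶠ[𝓝 z] g) (e : ℂ) : pd e f z = pd e g z := by
  unfold pd; rw [h.fderiv_eq]

lemma differentiableAt_pd {f : ℂ → ℝ} {z : ℂ} (hf : ContDiffAt ℝ 2 f z) (e : ℂ) :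
    DifferentiableAt ℝ (pd e f) z := by
  have hd : DifferentiableAt ℝ (fderiv ℝ f) z :=
    (hf.fderiv_right (m := 1) (by norm_num)).differentiableAt (by norm_num)
  exact hd.clm_apply (differentiableAt_const e)

lemma eventually_differentiableAt {f : ℂ → ℝ} {z : ℂ} (hf : ContDiffAt ℝ 2 f z) :
    ∀ᶠ w in 𝓝 z, DifferentiableAt ℝ f w := by
  filter_upwards [hf.eventually (by simp)] with w hw
  exact hw.differentiableAt (by norm_num)

lemma pd_pd_mul {f g : ℂ → ℝ} {z : ℂ} (hf : ContDiffAt ℝ 2 f z) (hg : ContDiffAt ℝ 2 g z)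
    (e : ℂ) : pd e (pd e (fun w => f w * g w)) z =
      f z * pd e (pd e g) z + g z * pd e (pd e f) z + 2 * (pd e f z * pd e g z) := by
  have h1 : pd e (fun w => f w * g w) =ᶠ[𝓝 z] fun w => f w * pd e g w + g w * pd e f w := by
    filter_upwards [eventually_differentiableAt hf, eventually_differentiableAt hg] with w h1 h2
    exact pd_mul h1 h2 e
  have hfd := hf.differentiableAt (n := 2) (by norm_num)
  have hgd := hg.differentiableAt (n := 2) (by norm_num)
  rw [pd_congr h1, pd_add (hfd.fun_mul (differentiableAt_pd hg e))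
      (hgd.fun_mul (differentiableAt_pd hf e)),
    pd_mul hfd (differentiableAt_pd hg e), pd_mul hgd (differentiableAt_pd hf e)]
  ring

lemma pd_pd_sub {f g : ℂ → ℝ} {z : ℂ} (hf : ContDiffAt ℝ 2 f z) (hg : ContDiffAt ℝ 2 g z)
    (e : ℂ) : pd e (pd e (fun w => f w - g w)) z = pd e (pd e f) z - pd e (pd e g) z := by
  have h1 : pd e (fun w => f w - g w) =ᶠ[𝓝 z] fun w => pd e f w - pd e g w := by
    filter_upwards [eventually_differentiableAt hf, eventually_differentiableAt hg] with w h1 h2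
    exact pd_sub h1 h2 e
  rw [pd_congr h1, pd_sub (differentiableAt_pd hf e) (differentiableAt_pd hg e)]

lemma lap_mul {f g : ℂ → ℝ} {z : ℂ} (hf : ContDiffAt ℝ 2 f z) (hg : ContDiffAt ℝ 2 g z) :
    lap (fun w => f w * g w) z =
      f z * lap g z + g z * lap f z + 2 * (pd 1 f z * pd 1 g z + pd I f z * pd I g z) := by
  unfold lap
  rw [pd_pd_mul hf hg, pd_pd_mul hf hg]
  ring

lemma lap_sub {f g : ℂ → ℝ} {z : ℂ} (hf : ContDiffAt ℝ 2 f z) (hg : ContDiffAt ℝ 2 g z) :
    lap (fun w => f w - g w) z = lap f z - lap g z := by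
  unfold lap
  rw [pd_pd_sub hf hg, pd_pd_sub hf hg]
  ring

lemma lap_eq_zero {f : ℂ → ℝ} {z : ℂ} (h : HarmonicAt f z) : lap f z = 0 := by
  rw [← laplacian_eq_lap h.1]
  exact h.2.eq_of_nhds

/-- Two harmonic functions `a, b` such that `a² - b²` and `ab` are harmonic are the real and
imaginary part of a holomorphic or of an antiholomorphic function. -/
theorem holomorphic_or_antiholomorphic {U : Set ℂ} (hU : IsOpen U) (hUc : IsPreconnected U)
    {a b : ℂ → ℝ} (ha : HarmonicOnNhd a U) (hb : HarmonicOnNhd b U)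
    (hab : HarmonicOnNhd (fun z => a z * b z) U)
    (hab' : HarmonicOnNhd (fun z => a z * a z - b z * b z) U) :
    DifferentiableOn ℂ (fun z => (a z : ℂ) + b z * I) U ∨
      DifferentiableOn ℂ (fun z => (a z : ℂ) - b z * I) U := by
  set A : ℂ → ℂ := fun z ↦ fderiv ℝ a z 1 - I * fderiv ℝ a z I with hA
  set B : ℂ → ℂ := fun z ↦ fderiv ℝ b z 1 - I * fderiv ℝ b z I with hB
  have hAa : AnalyticOnNhd ℂ A U := fun z hz =>
    HarmonicAt.analyticAt_complex_partial (ha z hz)
  have hBa : AnalyticOnNhd ℂ B U := fun z hz =>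
    HarmonicAt.analyticAt_complex_partial (hb z hz)
  have hrel : ∀ z ∈ U, (pd 1 a z * pd 1 b z + pd I a z * pd I b z = 0) ∧
      (pd 1 a z * pd 1 a z + pd I a z * pd I a z = pd 1 b z * pd 1 b z + pd I b z * pd I b z) := by
    intro z hz
    have h1 := lap_eq_zero (ha z hz)
    have h2 := lap_eq_zero (hb z hz)
    have h3 := lap_eq_zero (hab z hz)
    have h4 := lap_eq_zero (hab' z hz)
    rw [lap_mul (ha z hz).1 (hb z hz).1, h1, h2] at h3
    rw [lap_sub ((ha z hz).1.mul (ha z hz).1) ((hb z hz).1.mul (hb z hz).1),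
      lap_mul (ha z hz).1 (ha z hz).1, lap_mul (hb z hz).1 (hb z hz).1, h1, h2] at h4
    constructor <;> linarith
  have hprod : ∀ z ∈ U, (A z - I * B z) * (A z + I * B z) = 0 := by
    intro z hz
    obtain ⟨h1, h2⟩ := hrel z hz
    set p := pd 1 a z
    set q := pd I a z
    set r := pd 1 b z
    set s := pd I b z
    have hid : (p ^ 2 - q ^ 2 + r ^ 2 - s ^ 2) ^ 2 + 4 * (p * q + r * s) ^ 2 =
        (p * p + q * q - (r * r + s * s)) ^ 2 + 4 * (p * r + q * s) ^ 2 := by ring
    have h0 : (p ^ 2 - q ^ 2 + r ^ 2 - s ^ 2) ^ 2 + 4 * (p * q + r * s) ^ 2 = 0 := by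
      rw [hid, h1, h2]; ring
    have e1 := sq_nonneg (p * q + r * s)
    have e2 := sq_nonneg (p ^ 2 - q ^ 2 + r ^ 2 - s ^ 2)
    have h3 : p ^ 2 - q ^ 2 + r ^ 2 - s ^ 2 = 0 := by
      have : (p ^ 2 - q ^ 2 + r ^ 2 - s ^ 2) ^ 2 = 0 := by linarith
      exact pow_eq_zero_iff (two_ne_zero) |>.1 this
    have h4 : p * q + r * s = 0 := by
      have : (p * q + r * s) ^ 2 = 0 := by linarith
      exact pow_eq_zero_iff (two_ne_zero) |>.1 this
    have hAz : A z = (p : ℂ) - I * q := rfl
    have hBz : B z = (r : ℂ) - I * s := rfl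
    rw [hAz, hBz]
    have h5 : ((p : ℂ) - I * q - I * (r - I * s)) * ((p : ℂ) - I * q + I * (r - I * s)) =
        ((p ^ 2 - q ^ 2 + r ^ 2 - s ^ 2 : ℝ) : ℂ) - 2 * I * ((p * q + r * s : ℝ) : ℂ) := by
      push_cast
      ring_nf
      simp only [I_sq, show I ^ 3 = -I from by rw [pow_succ, I_sq]; ring,
        show I ^ 4 = 1 from by rw [show (4:ℕ) = 2 * 2 from rfl, pow_mul, I_sq]; ring]
      ring
    rw [h5, h3, h4]; simp
  have hd : ∀ f : ℂ → ℝ, HarmonicOnNhd f U → ∀ z ∈ U, DifferentiableAt ℝ f z := fun f hf z hz =>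
    (hf z hz).1.differentiableAt (by norm_num)
  have hfd : ∀ (σ : ℂ), ∀ z ∈ U, HasFDerivAt (fun z => (a z : ℂ) + b z * σ)
      (ofRealCLM.comp (fderiv ℝ a z) + σ • ofRealCLM.comp (fderiv ℝ b z)) z := by
    intro σ z hz
    have h1 : HasFDerivAt (fun z => (a z : ℂ)) (ofRealCLM.comp (fderiv ℝ a z)) z :=
      ofRealCLM.hasFDerivAt.comp z (hd a ha z hz).hasFDerivAt
    have h2 : HasFDerivAt (fun z => (b z : ℂ)) (ofRealCLM.comp (fderiv ℝ b z)) z :=
      ofRealCLM.hasFDerivAt.comp z (hd b hb z hz).hasFDerivAt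
    exact h1.add (h2.mul_const σ)
  rcases AnalyticOnNhd.eq_zero_or_eq_zero_of_mul_eq_zero
    (hAa.sub (analyticOnNhd_const.mul hBa)) (hAa.add (analyticOnNhd_const.mul hBa))
    hprod hUc with h | h
  · left
    intro z hz
    apply DifferentiableAt.differentiableWithinAt
    rw [differentiableAt_complex_iff_differentiableAt_real]
    refine ⟨(hfd I z hz).differentiableAt, ?_⟩
    rw [(hfd I z hz).fderiv]
    have h0 : A z - I * B z = 0 := h z hz
    simp only [hA, hB] at h0
    have hre := congrArg Complex.re h0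
    have him := congrArg Complex.im h0
    simp at hre him
    apply Complex.ext
    · simp; linarith
    · simp; linarith
  · right
    intro z hz
    apply DifferentiableAt.differentiableWithinAt
    rw [differentiableAt_complex_iff_differentiableAt_real]
    have hfd' := hfd (-I) z hz
    have heq : (fun z => (a z : ℂ) + b z * (-I)) = fun z => (a z : ℂ) - b z * I := by
      funext w; ring
    rw [heq] at hfd'
    refine ⟨hfd'.differentiableAt, ?_⟩
    rw [hfd'.fderiv]
    have h0 : A z + I * B z = 0 := h z hz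
    simp only [hA, hB] at h0
    have hre := congrArg Complex.re h0
    have him := congrArg Complex.im h0
    simp at hre him
    apply Complex.ext
    · simp; linarith
    · simp; linarith

/-- **The conformal end.** A continuous map on a plane domain such that the four functions
`x, y, xy, x²-y²` composed with it are weakly harmonic is holomorphic or antiholomorphic. -/
theorem conformal_end {U : Set ℂ} (hU : IsOpen U) (hUc : IsPreconnected U) {S : ℂ → ℂ}
    (hS : ContinuousOn S U)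
    (h1 : ∀ ψ : ℂ → ℝ, ContDiff ℝ ∞ ψ → HasCompactSupport ψ → tsupport ψ ⊆ U →
      ∫ z, (S z).re * lap ψ z = 0)
    (h2 : ∀ ψ : ℂ → ℝ, ContDiff ℝ ∞ ψ → HasCompactSupport ψ → tsupport ψ ⊆ U →
      ∫ z, (S z).im * lap ψ z = 0)
    (h3 : ∀ ψ : ℂ → ℝ, ContDiff ℝ ∞ ψ → HasCompactSupport ψ → tsupport ψ ⊆ U →
      ∫ z, ((S z).re * (S z).im) * lap ψ z = 0)
    (h4 : ∀ ψ : ℂ → ℝ, ContDiff ℝ ∞ ψ → HasCompactSupport ψ → tsupport ψ ⊆ U →
      ∫ z, ((S z).re * (S z).re - (S z).im * (S z).im) * lap ψ z = 0) :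
    DifferentiableOn ℂ S U ∨ DifferentiableOn ℂ (fun z => (starRingEnd ℂ) (S z)) U := by
  have hre : ContinuousOn (fun z => (S z).re) U := Complex.continuous_re.comp_continuousOn hS
  have him : ContinuousOn (fun z => (S z).im) U := Complex.continuous_im.comp_continuousOn hS
  have key := holomorphic_or_antiholomorphic hU hUc (a := fun z => (S z).re)
    (b := fun z => (S z).im) (weyl hU hre h1) (weyl hU him h2) (weyl hU (hre.mul him) h3)
    (weyl hU ((hre.mul hre).sub (him.mul him)) h4)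
  rcases key with h | h
  · left
    refine h.congr fun z _ => ?_
    simp [Complex.re_add_im]
  · right
    refine h.congr fun z _ => ?_
    apply Complex.ext <;> simp

end P198W
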