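import Mathlib

/-!
# Uniform limits of harmonic functions in the plane are harmonic
-/

open Filter Topology Set Metric Complex InnerProductSpace

namespace P198W

/-- Borel–Carathéodory with centre `c`. -/
lemma borel_bound {f : ℂ → ℂ} {c : ℂ} {R M : ℝ} (hM : 0 < M) (hR : 0 < R)
    (hf : DifferentiableOn ℂ f (ball c R)) (hre : ∀ z ∈ ball c R, (f z).re ≤ M)
    {z : ℂ} (hz : z ∈ ball c R) :
    ‖f z‖ ≤ 2 * M * ‖z - c‖ / (R - ‖z - c‖) + ‖f c‖ * (R + ‖z - c‖) / (R - ‖z - c‖) := by
  have h := Complex.borelCaratheodory (f := fun w => f (c + w)) (R := R) (M := M)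
    (z := z - c) hM ?_ ?_ hR ?_
  · simpa using h
  · refine hf.comp (by fun_prop) ?_
    intro w hw
    simpa using hw
  · intro w hw
    exact hre _ (by simpa using hw)
  · simpa [dist_eq_norm] using hz

/-- A uniform limit of harmonic functions on a disc is harmonic. -/
theorem harmonicOnNhd_of_tendstoUniformlyOn {c : ℂ} {R : ℝ} {F : ℕ → ℂ → ℝ} {u : ℂ → ℝ}
    (hF : ∀ n, HarmonicOnNhd (F n) (ball c R))
    (h : TendstoUniformlyOn F u atTop (ball c R)) : HarmonicOnNhd u (ball c R) := by
  rcases le_or_gt R 0 with hR | hR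
  · rw [ball_eq_empty.2 hR]; intro x hx; exact absurd hx (by simp)
  choose A hA hAre using fun n => (hF n).exists_analyticOnNhd_ball_re_eq
  have hc : c ∈ ball c R := mem_ball_self hR
  -- normalise
  set G : ℕ → ℂ → ℂ := fun n z => A n z - ((A n c).im : ℂ) * I with hG
  have hGd : ∀ n, DifferentiableOn ℂ (G n) (ball c R) := fun n =>
    (hA n).differentiableOn.sub_const _
  have hGre : ∀ n, ∀ z ∈ ball c R, (G n z).re = F n z := by
    intro n z hz
    have := hAre n hz
    simp only at this
    simp [hG, this]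
  have hGc : ∀ n, G n c = (F n c : ℂ) := by
    intro n
    apply Complex.ext
    · rw [hGre n c hc]; simp
    · simp [hG]
  have hcauchy : UniformCauchySeqOn F atTop (ball c R) := h.uniformCauchySeqOn
  -- Cauchy on smaller balls
  have hGC : ∀ r, 0 < r → r < R → UniformCauchySeqOn G atTop (closedBall c r) := by
    intro r hr hrR
    rw [Metric.uniformCauchySeqOn_iff]
    intro ε hε
    rw [Metric.uniformCauchySeqOn_iff] at hcauchy
    set K : ℝ := (2 * r + (R + r)) / (R - r) with hK
    have hRr : 0 < R - r := by linarith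
    have hKpos : 0 < K := by positivity
    obtain ⟨N, hN⟩ := hcauchy (ε / (2 * K)) (by positivity)
    refine ⟨N, fun m hm n hn z hz => ?_⟩
    have hzR : z ∈ ball c R := closedBall_subset_ball hrR hz
    have hzr : ‖z - c‖ ≤ r := by simpa [dist_eq_norm] using hz
    set M : ℝ := ε / (2 * K) with hMdef
    have hM : 0 < M := by positivity
    have hb := borel_bound (f := fun z => G m z - G n z) (c := c) (R := R) (M := M) hM hR
      ((hGd m).sub (hGd n)) (by
        intro w hw
        have h1 := hN m hm n hn w hw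
        rw [Real.dist_eq] at h1
        simp only [sub_re, hGre _ _ hw]
        exact (le_abs_self _).trans h1.le) hzR
    have hfc : ‖G m c - G n c‖ ≤ M := by
      rw [hGc, hGc, ← ofReal_sub, norm_real, Real.norm_eq_abs, ← Real.dist_eq]
      exact (hN m hm n hn c hc).le
    rw [dist_eq_norm]
    have hden : 0 < R - ‖z - c‖ := by linarith
    have hden2 : R - r ≤ R - ‖z - c‖ := by linarith
    have h1 : 2 * M * ‖z - c‖ / (R - ‖z - c‖) ≤ 2 * M * r / (R - r) := by
      gcongr
    have h2 : ‖G m c - G n c‖ * (R + ‖z - c‖) / (R - ‖z - c‖) ≤ M * (R + r) / (R - r) := by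
      gcongr
    have h3 : 2 * M * r / (R - r) + M * (R + r) / (R - r) = M * K := by
      rw [hK]; field_simp
    have h4 : M * K = ε / 2 := by rw [hMdef]; field_simp
    have hb' : ‖G m z - G n z‖ ≤ 2 * M * ‖z - c‖ / (R - ‖z - c‖) +
        ‖G m c - G n c‖ * (R + ‖z - c‖) / (R - ‖z - c‖) := hb
    linarith
  -- pointwise limit
  have hlim : ∀ z ∈ ball c R, ∃ w, Tendsto (fun n => G n z) atTop (𝓝 w) := by
    intro z hz
    have hz' : dist z c < R := hz
    obtain ⟨r, hr1, hr2⟩ := exists_between hz'
    have hr0 : 0 < r := lt_of_le_of_lt dist_nonneg hr1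
    exact cauchySeq_tendsto_of_complete
      ((hGC r hr0 hr2).cauchySeq (by simpa using hr1.le))
  choose! g hg using hlim
  have hloc : TendstoLocallyUniformlyOn G g atTop (ball c R) := by
    rw [tendstoLocallyUniformlyOn_iff_forall_isCompact isOpen_ball]
    intro K hKR hK
    obtain ⟨r, hr, hKr⟩ : ∃ r, r < R ∧ K ⊆ closedBall c r := by
      rcases K.eq_empty_or_nonempty with rfl | hne
      · exact ⟨0, hR, by simp⟩
      · obtain ⟨z, hzK, hz⟩ := hK.exists_isMaxOn hne
          (f := fun z => dist z c) (by fun_prop)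
        exact ⟨dist z c, hKR hzK, fun w hw => hz hw⟩
    have hr' : 0 < max r (R / 2) := lt_max_of_lt_right (by linarith)
    have hr'' : max r (R / 2) < R := max_lt hr (by linarith)
    have := (hGC _ hr' hr'').tendstoUniformlyOn_of_tendsto (f := g)
      (fun z hz => hg z (closedBall_subset_ball hr'' hz))
    exact this.mono (hKr.trans (closedBall_subset_closedBall (le_max_left _ _)))
  have hgd : DifferentiableOn ℂ g (ball c R) :=
    hloc.differentiableOn (Eventually.of_forall hGd) isOpen_ball
  have hgre : ∀ z ∈ ball c R, (g z).re = u z := by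
    intro z hz
    have h1 : Tendsto (fun n => (G n z).re) atTop (𝓝 (g z).re) :=
      (Complex.continuous_re.tendsto _).comp (hg z hz)
    have h2 : Tendsto (fun n => F n z) atTop (𝓝 (u z)) := h.tendsto_at hz
    have h3 : (fun n => (G n z).re) = fun n => F n z := by
      funext n; exact hGre n z hz
    rw [h3] at h1
    exact tendsto_nhds_unique h1 h2
  intro z hz
  have hga : AnalyticAt ℂ g z := hgd.analyticAt (isOpen_ball.mem_nhds hz)
  have := hga.harmonicAt_re
  refine (harmonicAt_congr_nhds ?_).1 this
  filter_upwards [isOpen_ball.mem_nhds hz] with w hw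
  exact hgre w hw

end P198W
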